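import Mathlib

/-! The degree identity: for a C^1 map equal to the identity outside a ball,
the integral of the pulled back density equals the integral of the density. -/

open MeasureTheory Set Metric Filter Topology
open scoped BigOperators

namespace Vale.Agent.P228

abbrev Vec (n : ℕ) := Fin n → ℝ

variable {n : ℕ}

/-- The Jacobian determinant. -/
noncomputable def jac (F : Vec n → Vec n) (x : Vec n) : ℝ := (fderiv ℝ F x).det

/-- Functions that are polynomial in a parameter with continuous coefficients. -/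
inductive PolyT {X : Type} [TopologicalSpace X] : (ℝ → X → ℝ) → Prop
  | mono (k : ℕ) (c : X → ℝ) (hc : Continuous c) : PolyT (fun t x => t ^ k * c x)
  | add {q r : ℝ → X → ℝ} (hq : PolyT q) (hr : PolyT r) : PolyT (fun t x => q t x + r t x)

section poly
variable {X : Type} [TopologicalSpace X]

theorem PolyT.congr {q r : ℝ → X → ℝ} (hq : PolyT q) (h : ∀ t x, q t x = r t x) : PolyT r :=
  (funext fun t => funext (h t)) ▸ hq

theorem PolyT.coeff {c : X → ℝ} (hc : Continuous c) : PolyT (fun _ x => c x) :=
  (PolyT.mono 0 c hc).congr (by simp)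

theorem PolyT.mul_mono {q : ℝ → X → ℝ} (hq : PolyT q) (k : ℕ) {c : X → ℝ} (hc : Continuous c) :
    PolyT (fun t x => t ^ k * c x * q t x) := by
  induction hq with
  | mono l d hd =>
    exact (PolyT.mono (k + l) _ (hc.mul hd)).congr fun t x => by
      simp only [Pi.mul_apply, pow_add]; ring
  | add _ _ h1 h2 => exact (h1.add h2).congr fun t x => by ring

theorem PolyT.mul {q r : ℝ → X → ℝ} (hq : PolyT q) (hr : PolyT r) :
    PolyT (fun t x => q t x * r t x) := by
  induction hq with
  | mono k c hc => exact hr.mul_mono k hc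
  | add _ _ h1 h2 => exact (h1.add h2).congr fun t x => by ring

theorem PolyT.sum {ι : Type} (s : Finset ι) {q : ι → ℝ → X → ℝ} (h : ∀ i ∈ s, PolyT (q i)) :
    PolyT (fun t x => ∑ i ∈ s, q i t x) := by
  classical
  induction s using Finset.induction_on with
  | empty => exact (PolyT.coeff (continuous_const (y := (0:ℝ)))).congr (by simp)
  | insert a s ha ih =>
    exact ((h a (Finset.mem_insert_self a s)).add
      (ih fun i hi => h i (Finset.mem_insert_of_mem hi))).congr (by simp [Finset.sum_insert ha])

theorem PolyT.prod {ι : Type} (s : Finset ι) {q : ι → ℝ → X → ℝ} (h : ∀ i ∈ s, PolyT (q i)) :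
    PolyT (fun t x => ∏ i ∈ s, q i t x) := by
  classical
  induction s using Finset.induction_on with
  | empty => exact (PolyT.coeff (continuous_const (y := (1:ℝ)))).congr (by simp)
  | insert a s ha ih =>
    exact ((h a (Finset.mem_insert_self a s)).mul
      (ih fun i hi => h i (Finset.mem_insert_of_mem hi))).congr (by simp [Finset.prod_insert ha])

theorem PolyT.continuous {q : ℝ → X → ℝ} (hq : PolyT q) (t : ℝ) : Continuous (q t) := by
  induction hq with
  | mono k c hc => exact continuous_const.mul hc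
  | add _ _ h1 h2 => exact h1.add h2

end poly

theorem PolyT.exists_integral {q : ℝ → Vec n → ℝ} (hq : PolyT q) {B : Set (Vec n)}
    (hB : IsCompact B) : ∃ P : Polynomial ℝ, ∀ t, ∫ x in B, q t x = P.eval t := by
  induction hq with
  | mono k c hc =>
    exact ⟨Polynomial.C (∫ x in B, c x) * Polynomial.X ^ k, fun t => by
      rw [Polynomial.eval_mul, Polynomial.eval_C, Polynomial.eval_pow, Polynomial.eval_X,
        integral_const_mul, mul_comm]⟩
  | add h1 h2 i1 i2 =>
    obtain ⟨P, hP⟩ := i1
    obtain ⟨Q, hQ⟩ := i2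
    refine ⟨P + Q, fun t => ?_⟩
    rw [integral_add ((h1.continuous t).continuousOn.integrableOn_compact hB)
      ((h2.continuous t).continuousOn.integrableOn_compact hB), hP, hQ, Polynomial.eval_add]

theorem polyT_det {u : Vec n → Vec n} (hu : ContDiff ℝ 1 u) :
    PolyT (fun t x => (ContinuousLinearMap.id ℝ (Vec n) + t • fderiv ℝ u x).det) := by
  have hD : ∀ i j, Continuous fun x => fderiv ℝ u x (Pi.single j 1) i := fun i j =>
    (continuous_apply i).comp ((hu.continuous_fderiv one_ne_zero).clm_apply continuous_const)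
  have key : ∀ t x, (ContinuousLinearMap.id ℝ (Vec n) + t • fderiv ℝ u x).det =
      ∑ σ : Equiv.Perm (Fin n), ((Equiv.Perm.sign σ : ℤ) : ℝ) *
        ∏ i, ((1 : Matrix (Fin n) (Fin n) ℝ) (σ i) i + t * fderiv ℝ u x (Pi.single i 1) (σ i)) := by
    intro t x
    unfold ContinuousLinearMap.det
    rw [← LinearMap.det_toMatrix', Matrix.det_apply']
    refine Finset.sum_congr rfl fun σ _ => ?_
    congr 1
    refine Finset.prod_congr rfl fun i _ => ?_
    rw [LinearMap.toMatrix'_apply]
    change (Pi.single i (1:ℝ) : Vec n) (σ i) + t * _ = _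
    congr 1
    rw [Pi.single_apply, Matrix.one_apply]
  refine (PolyT.sum Finset.univ fun σ _ => ?_).congr fun t x => (key t x).symm
  refine (PolyT.coeff continuous_const).mul (PolyT.prod Finset.univ fun i _ => ?_)
  refine (PolyT.coeff continuous_const).add ?_
  exact (PolyT.mono 1 _ (hD (σ i) i)).congr (by simp)

/-- Polynomial functions of the coordinates. -/
noncomputable def coordAlg (n : ℕ) : Subalgebra ℝ C(Vec n, ℝ) :=
  Algebra.adjoin ℝ (range fun i : Fin n => (⟨fun x => x i, continuous_apply i⟩ : C(Vec n, ℝ)))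

theorem coordAlg_polyT {u : Vec n → Vec n} (hu : Continuous u) {P : C(Vec n, ℝ)}
    (hP : P ∈ coordAlg n) : PolyT (fun t x => P (x + t • u x)) := by
  induction hP using Algebra.adjoin_induction with
  | mem P hP =>
    obtain ⟨i, rfl⟩ := hP
    exact ((PolyT.coeff (continuous_apply i)).add
      (PolyT.mono 1 _ ((continuous_apply i).comp hu))).congr (by simp)
  | algebraMap r => exact (PolyT.coeff (continuous_const (y := r))).congr (by simp)
  | add P Q _ _ h1 h2 => exact (h1.add h2).congr (by simp)
  | mul P Q _ _ h1 h2 => exact (h1.mul h2).congr (by simp)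

theorem coordAlg_dense {K : Set (Vec n)} (hK : IsCompact K) {ψ : Vec n → ℝ}
    (hψ : Continuous ψ) {ε : ℝ} (hε : 0 < ε) :
    ∃ P ∈ coordAlg n, ∀ x ∈ K, |P x - ψ x| < ε := by
  have : CompactSpace K := isCompact_iff_compactSpace.mp hK
  let res : C(Vec n, ℝ) →ₐ[ℝ] C(K, ℝ) :=
    ContinuousMap.compRightAlgHom ℝ ℝ ⟨Subtype.val, continuous_subtype_val⟩
  have hsep : ((coordAlg n).map res).SeparatesPoints := by
    intro x y hxy
    obtain ⟨i, hi⟩ := Function.ne_iff.mp (fun h => hxy (Subtype.ext h))
    exact ⟨_, ⟨_, ⟨_, Algebra.subset_adjoin ⟨i, rfl⟩, rfl⟩, rfl⟩, hi⟩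
  obtain ⟨⟨g, hg⟩, hgd⟩ := ContinuousMap.exists_mem_subalgebra_near_continuousMap_of_separatesPoints
    _ hsep (⟨fun x => ψ x, hψ.comp continuous_subtype_val⟩ : C(K, ℝ)) ε hε
  obtain ⟨P, hP, rfl⟩ := hg
  refine ⟨P, hP, fun x hx => ?_⟩
  have h := lt_of_le_of_lt (ContinuousMap.norm_coe_le_norm _ (⟨x, hx⟩ : K)) hgd
  simpa [res, Real.norm_eq_abs] using h

/-- The degree identity. -/
theorem integral_comp_mul_jac {F : Vec n → Vec n} (hF : ContDiff ℝ 1 F) {R : ℝ}
    (hid : ∀ x, R < ‖x‖ → F x = x) {ψ : Vec n → ℝ} (hψ : Continuous ψ)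
    (hψc : HasCompactSupport ψ) :
    ∫ x, ψ (F x) * jac F x = ∫ x, ψ x := by
  obtain ⟨R₁, hR₁⟩ := hψc.isBounded.subset_closedBall 0
  obtain ⟨R', hRR', hR₁R', hR'0⟩ : ∃ R', R < R' ∧ R₁ < R' ∧ 0 < R' :=
    ⟨max (max R R₁) 0 + 1, by linarith [le_max_left R R₁, le_max_left (max R R₁) 0],
      by linarith [le_max_right R R₁, le_max_left (max R R₁) 0],
      by linarith [le_max_right (max R R₁) 0]⟩
  set B := closedBall (0 : Vec n) R' with hBdef
  have hB : IsCompact B := isCompact_closedBall 0 R'
  have hout : ∀ x ∉ B, F x = x ∧ ψ x = 0 := by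
    intro x hx
    rw [hBdef, mem_closedBall, dist_zero_right, not_le] at hx
    refine ⟨hid x (hRR'.trans hx), image_eq_zero_of_notMem_tsupport fun h => ?_⟩
    have := hR₁ h
    rw [mem_closedBall, dist_zero_right] at this
    linarith
  rw [← setIntegral_eq_integral_of_forall_compl_eq_zero (s := B)
      (fun x hx => by rw [(hout x hx).1, (hout x hx).2, zero_mul]),
    ← setIntegral_eq_integral_of_forall_compl_eq_zero (s := B) (fun x hx => (hout x hx).2)]
  let u : Vec n → Vec n := fun x => F x - x
  have hu : ContDiff ℝ 1 u := hF.sub contDiff_id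
  have hus : HasCompactSupport u := HasCompactSupport.intro hB fun x hx => by
    simp [u, (hout x hx).1]
  obtain ⟨L, hL⟩ := ContDiff.lipschitzWith_of_hasCompactSupport hus hu one_ne_zero
  let G : ℝ → Vec n → Vec n := fun t x => x + t • u x
  have hGd : ∀ t x, HasFDerivAt (G t) (ContinuousLinearMap.id ℝ (Vec n) + t • fderiv ℝ u x) x :=
    fun t x => (hasFDerivAt_id x).add ((hu.differentiable one_ne_zero x).hasFDerivAt.const_smul t)
  let J : ℝ → Vec n → ℝ := fun t x => (ContinuousLinearMap.id ℝ (Vec n) + t • fderiv ℝ u x).det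
  -- for small parameters
  have small : ∀ P ∈ coordAlg n, ∀ t : ℝ, 0 ≤ t → t * (L : ℝ) < 1 →
      ∫ x in B, P (G t x) * J t x = ∫ x in B, P x := by
    intro P _ t ht htL
    have hLip : LipschitzWith (t.toNNReal * L) (fun x => t • u x) := by
      refine LipschitzWith.of_dist_le_mul fun x y => ?_
      rw [dist_smul₀, Real.norm_of_nonneg ht, NNReal.coe_mul, Real.coe_toNNReal _ ht, mul_assoc]
      exact mul_le_mul_of_nonneg_left (hL.dist_le_mul x y) ht
    have hlt : t.toNNReal * L < 1 := by
      rw [← NNReal.coe_lt_coe, NNReal.coe_mul, Real.coe_toNNReal _ ht]; exact htL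
    have hinj : Function.Injective (G t) := by
      intro x y hxy
      have h1 : x - y = t • u y - t • u x := by
        simp only [G] at hxy
        linear_combination (norm := module) hxy
      have h2 := hLip.dist_le_mul y x
      rw [dist_eq_norm, dist_eq_norm, ← h1, norm_sub_rev y x] at h2
      by_contra hne
      have : 0 < ‖x - y‖ := norm_pos_iff.mpr (sub_ne_zero.mpr hne)
      have h3 : ((t.toNNReal * L : NNReal) : ℝ) < 1 := by exact_mod_cast hlt
      nlinarith
    have hsurj : ∀ y, ∃ x, G t x = y := by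
      intro y
      have hc : ContractingWith (t.toNNReal * L) (fun x => y - t • u x) := by
        refine ⟨hlt, LipschitzWith.of_dist_le_mul fun a b => ?_⟩
        rw [dist_sub_left]
        exact hLip.dist_le_mul a b
      refine ⟨hc.fixedPoint _, ?_⟩
      have h := hc.fixedPoint_isFixedPt
      simp only [Function.IsFixedPt] at h
      simp only [G]
      nth_rw 1 [← h]
      abel
    have hfix : ∀ x ∉ B, G t x = x := fun x hx => by simp [G, u, (hout x hx).1]
    have himg : G t '' B = B := by
      apply Subset.antisymm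
      · rintro _ ⟨x, hx, rfl⟩
        by_contra hy
        exact hy ((hinj (hfix _ hy)).symm ▸ hx)
      · intro y hy
        obtain ⟨x, rfl⟩ := hsurj y
        refine ⟨x, ?_, rfl⟩
        by_contra hx
        exact hx (hfix x hx ▸ hy)
    have hpos : ∀ x, 0 < J t x := by
      intro x
      have hns : ∀ s ∈ Icc (0:ℝ) t, J s x ≠ 0 := by
        intro s hs hzero
        have hzero' : LinearMap.det ((ContinuousLinearMap.id ℝ (Vec n) + s • fderiv ℝ u x :
            Vec n →L[ℝ] Vec n) : Vec n →ₗ[ℝ] Vec n) = 0 := hzero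
        obtain ⟨v, hv, hv0⟩ := Submodule.exists_mem_ne_zero_of_ne_bot
          (LinearMap.bot_lt_ker_of_det_eq_zero hzero').ne'
        have hv' : v + s • fderiv ℝ u x v = 0 := by simpa using hv
        have h1 : ‖v‖ ≤ s * ((L : ℝ) * ‖v‖) := by
          calc ‖v‖ = ‖s • fderiv ℝ u x v‖ := by
                rw [show v = -(s • fderiv ℝ u x v) from eq_neg_of_add_eq_zero_left hv', norm_neg]
                rw [← show v = -(s • fderiv ℝ u x v) from eq_neg_of_add_eq_zero_left hv']
            _ ≤ s * ((L : ℝ) * ‖v‖) := by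
                rw [norm_smul, Real.norm_of_nonneg hs.1]
                refine mul_le_mul_of_nonneg_left ?_ hs.1
                exact (ContinuousLinearMap.le_opNorm _ _).trans (mul_le_mul_of_nonneg_right
                  (norm_fderiv_le_of_lipschitz ℝ hL) (norm_nonneg _))
        have : 0 < ‖v‖ := norm_pos_iff.mpr hv0
        have hsL : s * (L : ℝ) ≤ t * L := mul_le_mul_of_nonneg_right hs.2 L.coe_nonneg
        nlinarith
      have hc : ContinuousOn (fun s => J s x) (Icc 0 t) := by
        apply Continuous.continuousOn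
        exact ContinuousLinearMap.continuous_det.comp (by fun_prop)
      have h0 : J 0 x = 1 := by simp [J, ContinuousLinearMap.det]
      by_contra hneg
      have hmem : (0:ℝ) ∈ Icc (J t x) (J 0 x) := ⟨not_lt.mp hneg, by rw [h0]; exact zero_le_one⟩
      obtain ⟨s, hs, hs0⟩ := intermediate_value_Icc' ht hc hmem
      exact hns s hs hs0
    have h := integral_image_eq_integral_abs_det_fderiv_smul volume
      (measurableSet_closedBall (x := (0 : Vec n)) (ε := R'))
      (fun x _ => (hGd t x).hasFDerivWithinAt) hinj.injOn (fun y => P y)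
    rw [← hBdef, himg] at h
    rw [h]
    refine setIntegral_congr_fun measurableSet_closedBall fun x _ => ?_
    show P (G t x) * J t x = |J t x| • P (G t x)
    rw [abs_of_pos (hpos x), smul_eq_mul, mul_comm]
  have allt : ∀ P ∈ coordAlg n, ∫ x in B, P (F x) * jac F x = ∫ x in B, P x := by
    intro P hP
    obtain ⟨Q, hQ⟩ := ((coordAlg_polyT hu.continuous hP).mul (polyT_det hu)).exists_integral hB
    have hconst : Q = Polynomial.C (∫ x in B, P x) := by
      apply Polynomial.eq_of_infinite_eval_eq
      refine Set.Infinite.mono ?_ (Set.Icc_infinite (show (0:ℝ) < 1 / ((L : ℝ) + 1) by positivity))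
      intro t ht
      have hL0 : (0:ℝ) ≤ L := L.coe_nonneg
      have htL : t * (L : ℝ) < 1 := by
        have h := ht.2
        rw [le_div_iff₀ (by positivity)] at h
        rcases eq_or_lt_of_le ht.1 with h0 | h0
        · simp [← h0]
        · nlinarith
      simp only [mem_ofPred_eq, Polynomial.eval_C, ← hQ]
      exact small P hP t ht.1 htL
    have h1 := hQ 1
    rw [hconst, Polynomial.eval_C] at h1
    rw [← h1]
    refine setIntegral_congr_fun measurableSet_closedBall fun x _ => ?_
    have e : fderiv ℝ u x = fderiv ℝ F x - ContinuousLinearMap.id ℝ (Vec n) :=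
      ((hF.differentiable one_ne_zero x).hasFDerivAt.sub (hasFDerivAt_id x)).fderiv
    simp [jac, u, e]
  -- approximation
  have hJc : Continuous (jac F) :=
    ContinuousLinearMap.continuous_det.comp (hF.continuous_fderiv one_ne_zero)
  have hint : ∀ φ : Vec n → ℝ, Continuous φ →
      IntegrableOn (fun x => φ (F x) * jac F x) B ∧ IntegrableOn φ B := fun φ hφ =>
    ⟨((hφ.comp hF.continuous).mul hJc).continuousOn.integrableOn_compact hB,
      hφ.continuousOn.integrableOn_compact hB⟩
  set a := ∫ x in B, ψ (F x) * jac F x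
  set b := ∫ x in B, ψ x
  have bound : ∀ ε > 0, |a - b| ≤ ε * ((∫ x in B, |jac F x|) + ∫ _x in B, (1:ℝ)) := by
    intro ε hε
    obtain ⟨P, hP, hPε⟩ := coordAlg_dense (hB.union (hB.image hF.continuous)) hψ hε
    have e := allt P hP
    have h1 : |a - ∫ x in B, P (F x) * jac F x| ≤ ε * ∫ x in B, |jac F x| := by
      rw [← integral_sub (hint ψ hψ).1 (hint P P.continuous).1, ← Real.norm_eq_abs,
        ← integral_const_mul]
      refine norm_integral_le_of_norm_le ((hJc.abs.const_mul ε).continuousOn.integrableOn_compact hB)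
        ((ae_restrict_iff' measurableSet_closedBall).mpr (Eventually.of_forall fun x hx => ?_))
      rw [← sub_mul, Real.norm_eq_abs, abs_mul]
      exact mul_le_mul_of_nonneg_right (by
        rw [abs_sub_comm]; exact (hPε _ (Or.inr ⟨x, hx, rfl⟩)).le) (abs_nonneg _)
    have h2 : |(∫ x in B, P x) - b| ≤ ε * ∫ _x in B, (1:ℝ) := by
      rw [← integral_sub (hint P P.continuous).2 (hint ψ hψ).2, ← Real.norm_eq_abs,
        ← integral_const_mul]
      refine norm_integral_le_of_norm_le (continuous_const.continuousOn.integrableOn_compact hB)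
        ((ae_restrict_iff' measurableSet_closedBall).mpr (Eventually.of_forall fun x hx => ?_))
      rw [Real.norm_eq_abs, mul_one]
      exact (hPε _ (Or.inl hx)).le
    rw [e] at h1
    calc |a - b| ≤ |a - ∫ x in B, P x| + |(∫ x in B, P x) - b| := abs_sub_le _ _ _
      _ ≤ _ := by linarith
  have hlim : Tendsto (fun ε : ℝ => ε * ((∫ x in B, |jac F x|) + ∫ _x in B, (1:ℝ)))
      (𝓝[>] 0) (𝓝 0) := by
    have hc : Continuous fun ε : ℝ => ε * ((∫ x in B, |jac F x|) + ∫ _x in B, (1:ℝ)) := by fun_prop
    have h' := (hc.tendsto (0:ℝ)).mono_left (nhdsWithin_le_nhds (s := Ioi 0))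
    rwa [zero_mul] at h' 
  have h0 : |a - b| ≤ 0 :=
    ge_of_tendsto hlim (eventually_mem_nhdsWithin.mono fun ε hε => bound ε hε)
  exact sub_eq_zero.mp (abs_nonpos_iff.mp h0)

end Vale.Agent.P228
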