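import Vale.Agent.P228.Split
import Vale.Agent.P228.Key

/-! Fibres of invariant maps of `ℤ_[p]` actions: a fibre with null distance images which has no
fixed point splits into `p` cyclically permuted compact pieces. -/

open MeasureTheory Set Metric Filter Topology

namespace Vale.Agent.P228

variable {n : ℕ} {p : ℕ} [Fact p.Prime]

/-- A continuous action of the `p`-adic integers on a compact subset. -/
structure Act (ρ : ℤ_[p] → Vec n → Vec n) (K : Set (Vec n)) : Prop where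
  cpt : IsCompact K
  cont : ContinuousOn (fun q : ℤ_[p] × Vec n => ρ q.1 q.2) (univ ×ˢ K)
  maps : ∀ g, MapsTo (ρ g) K K
  zero : ∀ x ∈ K, ρ 0 x = x
  add : ∀ g h, ∀ x ∈ K, ρ (g + h) x = ρ g (ρ h x)

/-- Distance from a point to the orbit of another one. -/
noncomputable def orbDist (ρ : ℤ_[p] → Vec n → Vec n) (x y : Vec n) : ℝ :=
  ⨅ g, ‖ρ g y - x‖

theorem abs_iInf_sub_le {ι : Type*} [Nonempty ι] {a b : ι → ℝ} (ha : BddBelow (range a))
    (hb : BddBelow (range b)) {d : ℝ} (h : ∀ i, |a i - b i| ≤ d) :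
    |(⨅ i, a i) - ⨅ i, b i| ≤ d := by
  rw [abs_sub_le_iff]
  constructor
  · have : (⨅ i, a i) - d ≤ ⨅ i, b i :=
      le_ciInf fun i => by linarith [ciInf_le ha i, (abs_le.mp (h i)).2]
    linarith
  · have : (⨅ i, b i) - d ≤ ⨅ i, a i :=
      le_ciInf fun i => by linarith [ciInf_le hb i, (abs_le.mp (h i)).1]
    linarith

theorem orbDist_lip (ρ : ℤ_[p] → Vec n → Vec n) (x : Vec n) {y y' : Vec n} {d : ℝ}
    (h : ∀ g, ‖ρ g y - ρ g y'‖ ≤ d) : |orbDist ρ x y - orbDist ρ x y'| ≤ d :=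
  abs_iInf_sub_le ⟨0, by rintro _ ⟨g, rfl⟩; exact norm_nonneg _⟩
    ⟨0, by rintro _ ⟨g, rfl⟩; exact norm_nonneg _⟩ fun g =>
    (abs_norm_sub_norm_le _ _).trans (by rw [sub_sub_sub_cancel_right]; exact h g)

/-- The label of the coset of `pℤ_[p]`. -/
noncomputable def lab (g : ℤ_[p]) : ZMod p := PadicInt.toZMod g

theorem lab_isOpen : IsOpen {g : ℤ_[p] | lab g = 0} := by
  have e : {g : ℤ_[p] | lab g = 0} = {g | ‖g‖ < 1} := by
    ext g
    rw [mem_ofPred_eq, mem_ofPred_eq, ← PadicInt.mem_nonunits, ← IsLocalRing.mem_maximalIdeal,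
      ← PadicInt.ker_toZMod]
    exact Iff.rfl
  rw [e]
  exact isOpen_lt continuous_norm continuous_const

theorem lab_isClosed (j : ZMod p) : IsClosed {g : ℤ_[p] | lab g = j} := by
  rw [← isOpen_compl_iff, isOpen_iff_mem_nhds]
  intro g hg
  have hc : Continuous fun h : ℤ_[p] => h - g := continuous_id.sub continuous_const
  refine mem_of_superset ((lab_isOpen.preimage hc).mem_nhds (by simp [lab])) fun h hh hj => ?_
  apply hg
  have : lab h - lab g = 0 := by
    have hh' : lab (h - g) = 0 := hh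
    simpa [lab, map_sub] using hh'
  simp only [mem_ofPred_eq] at hj ⊢
  rw [← hj, sub_eq_zero.mp this]

namespace Act

variable {ρ : ℤ_[p] → Vec n → Vec n} {K : Set (Vec n)}

theorem cont_g (A : Act ρ K) (g : ℤ_[p]) : ContinuousOn (ρ g) K :=
  A.cont.comp (continuous_const.prodMk continuous_id).continuousOn fun x hx => ⟨mem_univ _, hx⟩

theorem cont_orbit (A : Act ρ K) {x : Vec n} (hx : x ∈ K) : Continuous fun g => ρ g x :=
  A.cont.comp_continuous (continuous_id.prodMk continuous_const) fun _ => ⟨mem_univ _, hx⟩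

theorem inv_add (A : Act ρ K) (g : ℤ_[p]) {x : Vec n} (hx : x ∈ K) : ρ (-g) (ρ g x) = x := by
  rw [← A.add _ _ x hx, neg_add_cancel, A.zero x hx]

theorem uniform (A : Act ρ K) {ε : ℝ} (hε : 0 < ε) :
    ∃ δ > 0, ∀ x ∈ K, ∀ y ∈ K, dist x y < δ → ∀ g, dist (ρ g x) (ρ g y) < ε := by
  obtain ⟨δ, hδ, h⟩ := Metric.uniformContinuousOn_iff.mp
    ((isCompact_univ.prod A.cpt).uniformContinuousOn_of_continuous A.cont) ε hε
  exact ⟨δ, hδ, fun x hx y hy hxy g => h (g, x) ⟨mem_univ _, hx⟩ (g, y) ⟨mem_univ _, hy⟩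
    (by simpa [Prod.dist_eq, hδ] using hxy)⟩

/-- A map controlled by the displacement of whole orbits is continuous. -/
theorem continuousOn_of_orbit_lip (A : Act ρ K) {F : Type*} [PseudoMetricSpace F] {f : Vec n → F}
    {C : ℝ} (hC : 0 ≤ C)
    (hf : ∀ x ∈ K, ∀ y ∈ K, ∀ d, (∀ g, ‖ρ g x - ρ g y‖ ≤ d) → dist (f x) (f y) ≤ C * d) :
    ContinuousOn f K := by
  rw [Metric.continuousOn_iff]
  intro x hx ε hε
  obtain ⟨δ, hδ, h⟩ := A.uniform (div_pos hε (by linarith : 0 < C + 1))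
  refine ⟨δ, hδ, fun y hy hyx => ?_⟩
  refine (hf y hy x hx _ fun g => ?_).trans_lt ?_ (b := C * (ε / (C + 1)))
  · rw [← dist_eq_norm]; exact (h y hy x hx hyx g).le
  · rw [← mul_div_assoc, div_lt_iff₀ (by linarith)]; linarith

theorem orbDist_continuousOn (A : Act ρ K) (x : Vec n) : ContinuousOn (orbDist ρ x) K :=
  A.continuousOn_of_orbit_lip zero_le_one fun a _ b _ d h => by
    rw [Real.dist_eq, one_mul]; exact orbDist_lip ρ x h

theorem orbDist_inv (A : Act ρ K) (x : Vec n) (g : ℤ_[p]) {y : Vec n} (hy : y ∈ K) :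
    orbDist ρ x (ρ g y) = orbDist ρ x y := by
  unfold orbDist
  simp only [← A.add _ g y hy]
  exact (Equiv.addRight g).iInf_comp (g := fun h => ‖ρ h y - x‖)

/-- The stabilizer of a point which is not fixed lies in `pℤ_[p]`. -/
theorem lab_eq_of_eq (A : Act ρ K) {x y : Vec n} (hy : y ∈ K) (hx : x ∈ K)
    (hne : ∃ g, ρ g x ≠ x) {a b : ℤ_[p]} (ha : ρ a y = x) (hb : ρ b y = x) : lab a = lab b := by
  by_contra h
  set u := a - b
  have hu : ρ u x = x := by
    rw [← hb, ← A.add _ _ y hy, sub_add_cancel, ha, hb]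
  have hun : IsUnit u := by
    rw [PadicInt.isUnit_iff]
    refine le_antisymm (PadicInt.norm_le_one u) (not_lt.mp fun hlt => h ?_)
    have : lab u = 0 := by
      show PadicInt.toZMod u = 0
      rw [← RingHom.mem_ker, PadicInt.ker_toZMod, IsLocalRing.mem_maximalIdeal, PadicInt.mem_nonunits]
      exact hlt
    rw [lab, map_sub, sub_eq_zero] at this
    exact this
  have hclosed : IsClosed {t : ℤ_[p] | ρ (t * u) x = x} :=
    isClosed_eq ((A.cont_orbit hx).comp (continuous_id.mul continuous_const)) continuous_const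
  have hnat : range ((↑) : ℕ → ℤ_[p]) ⊆ {t : ℤ_[p] | ρ (t * u) x = x} := by
    rintro _ ⟨k, rfl⟩
    simp only [mem_ofPred_eq]
    induction k with
    | zero => simp [A.zero x hx]
    | succ k ih => rw [Nat.cast_succ, add_mul, one_mul, A.add _ _ x hx, hu, ih]
  have hall : ∀ g, ρ g x = x := by
    intro g
    have h1 := closure_minimal hnat hclosed
    rw [PadicInt.denseRange_natCast.closure_range] at h1
    have h2 := h1 (mem_univ (g * ↑hun.unit⁻¹))
    simp only [mem_ofPred_eq, mul_assoc] at h2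
    rwa [IsUnit.val_inv_mul, mul_one] at h2
  obtain ⟨g, hg⟩ := hne
  exact hg (hall g)

/-- Splitting of a fixed-point free invariant compact set with null distance images. -/
theorem exists_split (A : Act ρ K) {P : Set (Vec n)} (hP : IsCompact P) (hPK : P ⊆ K)
    (hinv : ∀ g, MapsTo (ρ g) P P) (hfree : ∀ x ∈ P, ∃ g, ρ g x ≠ x)
    (hnull : ∀ x ∈ P, volume (orbDist ρ x '' P) = 0) :
    ∃ Q : ZMod p → Set (Vec n), (∀ j, IsCompact (Q j)) ∧
      (Pairwise fun i j => Disjoint (Q i) (Q j)) ∧ (⋃ j, Q j) = P ∧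
      ∀ j, ∀ y ∈ Q j, ρ 1 y ∈ Q (j + 1) := by
  classical
  -- the piece at one point
  have hloc : ∀ x ∈ P, ∃ r > 0, (∀ y ∈ P, orbDist ρ x y ≠ r) ∧
      ∀ y ∈ P, ∀ a b, ‖ρ a y - x‖ ≤ r → ‖ρ b y - x‖ ≤ r → lab a = lab b := by
    intro x hx
    let B : Set (ℤ_[p] × ℤ_[p] × Vec n) := {q | lab (q.1 - q.2.1) ≠ 0 ∧ q.2.2 ∈ P}
    have hBc : IsCompact B := by
      refine (isCompact_univ.prod (isCompact_univ.prod hP)).of_isClosed_subset ?_
        fun q hq => ⟨mem_univ _, mem_univ _, hq.2⟩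
      exact ((lab_isOpen.preimage (continuous_fst.sub (continuous_fst.comp continuous_snd))
        ).isClosed_compl).inter (hP.isClosed.preimage (continuous_snd.comp continuous_snd))
    have hca : ContinuousOn (fun q : ℤ_[p] × ℤ_[p] × Vec n =>
        max ‖ρ q.1 q.2.2 - x‖ ‖ρ q.2.1 q.2.2 - x‖) B := by
      have h1 : ContinuousOn (fun q : ℤ_[p] × ℤ_[p] × Vec n => ρ q.1 q.2.2) B :=
        A.cont.comp (continuous_fst.prodMk (continuous_snd.comp continuous_snd)).continuousOn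
          fun q hq => ⟨mem_univ _, hPK hq.2⟩
      have h2 : ContinuousOn (fun q : ℤ_[p] × ℤ_[p] × Vec n => ρ q.2.1 q.2.2) B :=
        A.cont.comp ((continuous_fst.comp continuous_snd).prodMk
          (continuous_snd.comp continuous_snd)).continuousOn fun q hq => ⟨mem_univ _, hPK hq.2⟩
      exact (h1.sub continuousOn_const).norm.sup (h2.sub continuousOn_const).norm
    obtain ⟨r₀, hr₀, hr₀B⟩ : ∃ r₀ > 0, ∀ q ∈ B,
        r₀ ≤ max ‖ρ q.1 q.2.2 - x‖ ‖ρ q.2.1 q.2.2 - x‖ := by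
      rcases B.eq_empty_or_nonempty with he | hne
      · exact ⟨1, one_pos, by simp [he]⟩
      obtain ⟨q₀, hq₀, hmin⟩ := hBc.exists_isMinOn hne hca
      refine ⟨_, ?_, fun q hq => hmin hq⟩
      by_contra h
      have h1 := (le_max_left _ _).trans (not_lt.mp h)
      have h2 := (le_max_right _ _).trans (not_lt.mp h)
      rw [norm_le_zero_iff, sub_eq_zero] at h1 h2
      have := A.lab_eq_of_eq (hPK hq₀.2) (hPK hx) (hfree x hx) h1 h2
      exact hq₀.1 (by rw [lab, map_sub, sub_eq_zero]; exact this)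
    obtain ⟨r, hr, hr'⟩ : ∃ r ∈ Ioo 0 r₀, r ∉ orbDist ρ x '' P := by
      by_contra! h
      have := measure_mono (μ := volume) (show Ioo 0 r₀ ⊆ orbDist ρ x '' P from h)
      rw [hnull x hx, Real.volume_Ioo, sub_zero] at this
      exact (ENNReal.ofReal_pos.mpr hr₀).not_ge this
    refine ⟨r, hr.1, fun y hy e => hr' ⟨y, hy, e⟩, fun y hy a b ha hb => ?_⟩
    by_contra hne
    have h := hr₀B (a, b, y) ⟨fun h => hne (by rwa [lab, map_sub, sub_eq_zero] at h), hy⟩
    linarith [max_le ha hb, hr.2]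
  choose! r hr0 hrne hrlab using hloc
  have hbdd : ∀ x y, BddBelow (range fun g => ‖ρ g y - x‖) := fun x y =>
    ⟨0, by rintro _ ⟨g, rfl⟩; exact norm_nonneg _⟩
  let T : Vec n → Set (Vec n) := fun x => {y | orbDist ρ x y < r x}
  have hTnhds : ∀ x ∈ P, T x ∈ 𝓝[P] x := by
    intro x hx
    have h0 : orbDist ρ x x < r x := by
      refine (ciInf_le (hbdd x x) 0).trans_lt ?_
      simp [A.zero x (hPK hx), hr0 x hx]
    exact ((A.orbDist_continuousOn x x (hPK hx)).mono hPK).eventually_lt continuousWithinAt_const h0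
  obtain ⟨s, hsP, hscov⟩ := hP.elim_nhdsWithin_subcover T hTnhds
  obtain ⟨l, hl⟩ : ∃ l : List (Vec n), ∀ x, x ∈ l ↔ x ∈ s := ⟨s.toList, fun x => Finset.mem_toList⟩
  let k := l.length
  let x : Fin k → Vec n := fun i => l.get i
  have hxP : ∀ i, x i ∈ P := fun i => hsP _ ((hl _).mp (List.get_mem l i))
  have hcov : ∀ y ∈ P, ∃ i, orbDist ρ (x i) y < r (x i) := fun y hy => by
    obtain ⟨a, ha, hya⟩ := mem_iUnion₂.mp (hscov hy)
    obtain ⟨i, hi⟩ := List.get_of_mem ((hl a).mpr ha)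
    exact ⟨i, by simp only [x, hi]; exact hya⟩
  let Qi : ZMod p → Fin k → Set (Vec n) := fun j i =>
    {y | y ∈ P ∧ ∃ g, ‖ρ g y - x i‖ ≤ r (x i) ∧ lab g = -j} ∩
      {y | ∀ i' < i, r (x i') ≤ orbDist ρ (x i') y}
  have hQi : ∀ j i, IsCompact (Qi j i) := by
    intro j i
    have h1 : IsCompact {y | y ∈ P ∧ ∃ g, ‖ρ g y - x i‖ ≤ r (x i) ∧ lab g = -j} := by
      let D : Set (ℤ_[p] × Vec n) :=
        ({g | lab g = -j} ×ˢ P) ∩ (fun q => ‖ρ q.1 q.2 - x i‖) ⁻¹' Iic (r (x i))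
      have hD : IsCompact D := by
        refine ((lab_isClosed _).isCompact.prod hP).of_isClosed_subset ?_ inter_subset_left
        exact (((A.cont.mono (prod_mono (subset_univ _) hPK)).sub continuousOn_const).norm
          ).preimage_isClosed_of_isClosed ((lab_isClosed _).prod hP.isClosed) isClosed_Iic
      have e : {y | y ∈ P ∧ ∃ g, ‖ρ g y - x i‖ ≤ r (x i) ∧ lab g = -j} = Prod.snd '' D := by
        ext y
        constructor
        · rintro ⟨hy, g, h1, h2⟩; exact ⟨(g, y), ⟨⟨h2, hy⟩, h1⟩, rfl⟩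
        · rintro ⟨⟨g, y⟩, ⟨⟨h2, hy⟩, h1⟩, rfl⟩; exact ⟨hy, g, h1, h2⟩
      exact e ▸ hD.image continuous_snd
    refine h1.of_isClosed_subset ?_ inter_subset_left
    have e : Qi j i = {y | y ∈ P ∧ ∃ g, ‖ρ g y - x i‖ ≤ r (x i) ∧ lab g = -j} ∩
        {y | y ∈ P ∧ ∀ i' < i, r (x i') ≤ orbDist ρ (x i') y} := by
      ext y
      exact ⟨fun h => ⟨h.1, h.1.1, h.2⟩, fun h => ⟨h.1, h.2.2⟩⟩
    rw [e]
    refine h1.isClosed.inter ?_
    have e2 : {y | y ∈ P ∧ ∀ i' < i, r (x i') ≤ orbDist ρ (x i') y} =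
        P ∩ ⋂ i', ⋂ (_ : i' < i), (P ∩ orbDist ρ (x i') ⁻¹' Ici (r (x i'))) := by
      ext y
      simp only [mem_ofPred_eq, mem_inter_iff, mem_iInter, mem_preimage, mem_Ici]
      exact ⟨fun h => ⟨h.1, fun i' hi' => ⟨h.1, h.2 i' hi'⟩⟩, fun h => ⟨h.1, fun i' hi' => (h.2 i' hi').2⟩⟩
    rw [e2]
    exact hP.isClosed.inter (isClosed_iInter fun i' => isClosed_iInter fun _ =>
      ((A.orbDist_continuousOn _).mono hPK).preimage_isClosed_of_isClosed hP.isClosed isClosed_Ici)
  have hlt : ∀ i y, y ∈ P → ∀ g, ‖ρ g y - x i‖ ≤ r (x i) → orbDist ρ (x i) y < r (x i) :=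
    fun i y hy g hg => lt_of_le_of_ne ((ciInf_le (hbdd _ y) g).trans hg) (hrne _ (hxP i) y hy)
  refine ⟨fun j => ⋃ i, Qi j i, fun j => isCompact_iUnion (hQi j), ?_, ?_, ?_⟩
  · intro j j' hjj'
    refine disjoint_left.mpr fun y hy hy' => ?_
    obtain ⟨i, ⟨hyP, g, hg, hgl⟩, hmin⟩ := mem_iUnion.mp hy
    obtain ⟨i', ⟨-, g', hg', hgl'⟩, hmin'⟩ := mem_iUnion.mp hy'
    rcases lt_trichotomy i i' with h | h | h
    · exact absurd (hmin' i h) (not_le.mpr (hlt i y hyP g hg))
    · subst h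
      have := hrlab _ (hxP i) y hyP g g' hg hg'
      rw [hgl, hgl', neg_inj] at this
      exact hjj' this
    · exact absurd (hmin i' h) (not_le.mpr (hlt i' y hyP g' hg'))
  · apply Subset.antisymm
    · exact iUnion_subset fun j => iUnion_subset fun i y hy => hy.1.1
    · intro y hy
      let I := Finset.univ.filter fun i => orbDist ρ (x i) y < r (x i)
      have hI : I.Nonempty := by
        obtain ⟨i, hi⟩ := hcov y hy
        exact ⟨i, Finset.mem_filter.mpr ⟨Finset.mem_univ _, hi⟩⟩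
      have hi : orbDist ρ (x (I.min' hI)) y < r (x (I.min' hI)) :=
        (Finset.mem_filter.mp (I.min'_mem hI)).2
      obtain ⟨g, hg⟩ := exists_lt_of_ciInf_lt hi
      refine mem_iUnion.mpr ⟨-lab g, mem_iUnion.mpr ⟨I.min' hI, ⟨hy, g, hg.le, by rw [neg_neg]⟩,
        fun i' hi' => ?_⟩⟩
      by_contra hlt'
      exact absurd (I.min'_le i' (Finset.mem_filter.mpr ⟨Finset.mem_univ _, not_le.mp hlt'⟩))
        (not_le.mpr hi')
  · intro j y hy
    obtain ⟨i, ⟨hyP, g, hg, hgl⟩, hmin⟩ := mem_iUnion.mp hy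
    refine mem_iUnion.mpr ⟨i, ⟨hinv 1 hyP, g - 1, ?_, ?_⟩, fun i' hi' => ?_⟩
    · rw [← A.add _ _ y (hPK hyP), sub_add_cancel]; exact hg
    · rw [lab, map_sub, map_one, show PadicInt.toZMod g = -j from hgl]; ring
    · rw [A.orbDist_inv _ 1 (hPK hyP)]; exact hmin i' hi'

end Act

/-- Radial extension of a map defined near a ball to a map equal to the identity far away. -/
noncomputable def ext (v : Vec n) (R R' : ℝ) (F : Vec n → Vec n) (y : Vec n) : Vec n :=
  if ‖y - v‖ ≤ R then F y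
  else if ‖y - v‖ ≤ R' then
    v + (((1 - (‖y - v‖ - R) / (R' - R)) * ‖F y - v‖ + (‖y - v‖ - R) / (R' - R) * ‖y - v‖) /
      ‖y - v + (1 - (‖y - v‖ - R) / (R' - R)) • (F y - y)‖) •
      (y - v + (1 - (‖y - v‖ - R) / (R' - R)) • (F y - y))
  else y

theorem ext_shell {v : Vec n} {R R' δ : ℝ} (hR : R < R') {F : Vec n → Vec n} (hδ : δ < R)
    (hF : ∀ y ∈ closedBall v R', ‖F y - y‖ ≤ δ) {y : Vec n} (h1 : R ≤ ‖y - v‖)
    (h2 : ‖y - v‖ ≤ R') :
    y - v + (1 - (‖y - v‖ - R) / (R' - R)) • (F y - y) ≠ 0 := by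
  intro h
  have e : y - v = -((1 - (‖y - v‖ - R) / (R' - R)) • (F y - y)) := eq_neg_of_add_eq_zero_left h
  have ha : |1 - (‖y - v‖ - R) / (R' - R)| ≤ 1 := by
    rw [abs_le]
    have h3 : (‖y - v‖ - R) / (R' - R) ≤ 1 := (div_le_one (by linarith)).mpr (by linarith)
    have h4 : 0 ≤ (‖y - v‖ - R) / (R' - R) := div_nonneg (by linarith) (by linarith)
    constructor <;> linarith
  have h5 : ‖y - v‖ ≤ 1 * δ := by
    rw [e, norm_neg, norm_smul, Real.norm_eq_abs]
    exact mul_le_mul ha (hF y (mem_closedBall.mpr (by rwa [dist_eq_norm]))) (norm_nonneg _) zero_le_one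
  linarith

theorem continuous_ext {v : Vec n} {R R' δ : ℝ} (hR : R < R') {F : Vec n → Vec n} (hδ : δ < R)
    (hF : ∀ y ∈ closedBall v R', ‖F y - y‖ ≤ δ) (hFc : ContinuousOn F (closedBall v R')) :
    Continuous (ext v R R' F) := by
  unfold ext
  refine continuous_if (fun y hy => ?_) ?_ ?_
  · have e : ‖y - v‖ = R :=
      frontier_le_subset_eq (continuous_id.sub continuous_const).norm continuous_const hy
    rw [if_pos (e.le.trans hR.le)]
    have hs := ext_shell hR hδ hF e.ge (e.le.trans hR.le)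
    simp only [e, sub_self, zero_div, sub_zero, one_mul, zero_mul, add_zero, one_smul,
      show y - v + (F y - y) = F y - v by abel] at hs ⊢
    rw [div_self (norm_ne_zero_iff.mpr hs), one_smul]; abel
  · refine hFc.mono (closure_minimal (fun y hy => ?_) isClosed_closedBall)
    exact mem_closedBall.mpr (by rw [dist_eq_norm]; exact le_trans hy hR.le)
  · have hcl : closure {y : Vec n | ¬‖y - v‖ ≤ R} ⊆ {y | R ≤ ‖y - v‖} :=
      closure_minimal (fun y hy => (not_le.mp hy).le) (isClosed_le continuous_const (by fun_prop))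
    refine (ContinuousOn.mono ?_ hcl)
    refine ContinuousOn.if ?_ ?_ continuousOn_id
    · intro y hy
      have e : ‖y - v‖ = R' :=
        frontier_le_subset_eq (continuous_id.sub continuous_const).norm continuous_const hy.2
      simp only [e, div_self (show R' - R ≠ 0 by linarith), sub_self, zero_mul, zero_add, one_mul,
        zero_smul, add_zero]
      rw [div_self (show R' ≠ 0 by linarith [norm_nonneg (F y - y), show R ≤ R' from hR.le, e ▸ norm_nonneg (y - v), (norm_nonneg (F y - y)).trans (hF y (mem_closedBall.mpr (by rw [dist_eq_norm, e])))]), one_smul]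
      abel
    · intro y hy
      have hcl' : closure {a : Vec n | ‖a - v‖ ≤ R'} ⊆ {a | ‖a - v‖ ≤ R'} :=
        closure_minimal subset_rfl (isClosed_le (by fun_prop) continuous_const)
      have hy2 : ‖y - v‖ ≤ R' := hcl' hy.2
      have hFy : ContinuousWithinAt F
          ({a | R ≤ ‖a - v‖} ∩ closure {a | ‖a - v‖ ≤ R'}) y :=
        (hFc y (mem_closedBall.mpr (by rwa [dist_eq_norm]))).mono fun a ha =>
          mem_closedBall.mpr (by
            rw [dist_eq_norm]
            exact hcl' ha.2)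
      have hs := ext_shell hR hδ hF hy.1 hy2
      have hd : R' - R ≠ 0 := by linarith
      have hn : ContinuousWithinAt (fun a : Vec n => a - v)
          ({a | R ≤ ‖a - v‖} ∩ closure {a | ‖a - v‖ ≤ R'}) y :=
        continuousWithinAt_id.sub continuousWithinAt_const
      have hlam : ContinuousWithinAt (fun a => (‖a - v‖ - R) / (R' - R))
          ({a | R ≤ ‖a - v‖} ∩ closure {a | ‖a - v‖ ≤ R'}) y :=
        (hn.norm.sub continuousWithinAt_const).div_const _
      have hw : ContinuousWithinAt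
          (fun a => a - v + (1 - (‖a - v‖ - R) / (R' - R)) • (F a - a))
          ({a | R ≤ ‖a - v‖} ∩ closure {a | ‖a - v‖ ≤ R'}) y :=
        hn.add ((continuousWithinAt_const.sub hlam).smul (hFy.sub continuousWithinAt_id))
      exact continuousWithinAt_const.add
        (((((continuousWithinAt_const.sub hlam).mul (hFy.sub continuousWithinAt_const).norm).add
          (hlam.mul hn.norm)).div hw.norm (norm_ne_zero_iff.mpr hs)).smul hw)

theorem ext_norm {v : Vec n} {R R' δ m : ℝ} (hR : R < R') {F : Vec n → Vec n} (hδ : δ < R)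
    (hF : ∀ y ∈ closedBall v R', ‖F y - y‖ ≤ δ) (hm : m ≤ R)
    (hFm : ∀ y, R ≤ ‖y - v‖ → ‖y - v‖ ≤ R' → m ≤ ‖F y - v‖) {y : Vec n} (hy : R < ‖y - v‖) :
    m ≤ ‖ext v R R' F y - v‖ := by
  unfold ext
  rw [if_neg (not_le.mpr hy)]
  split_ifs with h2
  · have hs := ext_shell hR hδ hF hy.le h2
    have h3 : (‖y - v‖ - R) / (R' - R) ≤ 1 := (div_le_one (by linarith)).mpr (by linarith)
    have h4 : 0 ≤ (‖y - v‖ - R) / (R' - R) := div_nonneg (by linarith) (by linarith)
    rw [add_sub_cancel_left, norm_smul, norm_div, norm_norm,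
      div_mul_cancel₀ _ (norm_ne_zero_iff.mpr hs), Real.norm_eq_abs]
    refine le_trans ?_ (le_abs_self _)
    have := hFm y hy.le h2
    nlinarith
  · linarith

/-- In the situation of a small displacement, a good fibre contains a fixed point. -/
theorem Act.exists_fixed {ρ : ℤ_[p] → Vec n → Vec n} {K : Set (Vec n)} (A : Act ρ K) {v z : Vec n}
    {R R' δ m : ℝ} (hR : R < R') (hδ : δ < R) (hmR : m ≤ R) (hball : closedBall v R' ⊆ K)
    {f : Vec n → Vec n} (hfc : ContinuousOn f K) (hfinv : ∀ g, ∀ y ∈ K, f (ρ g y) = f y)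
    (hfd : ∀ y ∈ closedBall v R', ‖f y - y‖ ≤ δ) (hgd : ∀ y ∈ closedBall v R', ‖ρ 1 y - y‖ ≤ δ)
    (hfm : ∀ y, R ≤ ‖y - v‖ → ‖y - v‖ ≤ R' → m ≤ ‖f y - v‖)
    (hgm : ∀ y, R ≤ ‖y - v‖ → ‖y - v‖ ≤ R' → m ≤ ‖ρ 1 y - v‖)
    (hz : ‖z - v‖ < m) (hin : ∀ u ∈ K, f u = z → ‖u - v‖ < m)
    (hnull : ∀ x ∈ {u ∈ K | f u = z}, volume (orbDist ρ x '' {u ∈ K | f u = z}) = 0) :
    ∃ u ∈ K, f u = z ∧ ∀ g, ρ g u = u := by
  by_contra hno
  set P := {u ∈ K | f u = z} with hPdef
  have hPc : IsCompact P :=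
    A.cpt.of_isClosed_subset (hfc.preimage_isClosed_of_isClosed A.cpt.isClosed isClosed_singleton)
      fun u hu => hu.1
  have hPinv : ∀ g, MapsTo (ρ g) P P := fun g u hu =>
    ⟨A.maps g hu.1, by rw [hfinv g u hu.1]; exact hu.2⟩
  have hfree : ∀ x ∈ P, ∃ g, ρ g x ≠ x := fun x hx => by
    by_contra! h
    exact hno ⟨x, hx.1, hx.2, h⟩
  obtain ⟨Q, hQc, hQd, hQu, hQs⟩ := A.exists_split hPc (fun u hu => hu.1) hPinv hfree hnull
  have hballR : ∀ y, ‖y - v‖ ≤ R → y ∈ K := fun y hy =>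
    hball (mem_closedBall.mpr (by rw [dist_eq_norm]; linarith))
  have hgc : ContinuousOn (ρ 1) (closedBall v R') := (A.cont_g 1).mono hball
  have hf'c := continuous_ext hR hδ hfd (hfc.mono hball)
  have hG'c := continuous_ext hR hδ hgd hgc
  have hfib : ext v R R' f ⁻¹' {z} = P := by
    ext y
    simp only [mem_preimage, mem_singleton_iff]
    constructor
    · intro h
      rcases le_or_gt ‖y - v‖ R with h1 | h1
      · exact ⟨hballR y h1, by rwa [ext, if_pos h1] at h⟩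
      · have := ext_norm hR hδ hfd hmR hfm h1
        rw [h] at this
        linarith
    · intro h
      rw [ext, if_pos ((hin y h.1 h.2).le.trans hmR)]
      exact h.2
  have hout : ∀ F : Vec n → Vec n, ∀ x, ‖v‖ + R' < ‖x‖ → ext v R R' F x = x := by
    intro F x hx
    have : R' < ‖x - v‖ := by linarith [norm_sub_norm_le x v]
    rw [ext, if_neg (by linarith), if_neg (by linarith)]
  have hp2 : 2 ≤ p := (Fact.out : p.Prime).two_le
  have : NeZero p := ⟨(Fact.out : p.Prime).ne_zero⟩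
  refine no_cyclic_split hp2 hf'c hG'c (hout f) (hout (ρ 1)) z Q hQc hQd (hQu.trans hfib.symm)
    (fun j => ?_) (N := {y | ‖y - v‖ < R} ∩ ext v R R' (ρ 1) ⁻¹' {y | ‖y - v‖ < R})
    ?_ ?_ ?_
  · ext y
    constructor
    · intro hy
      have hyP : ext v R R' (ρ 1) y ∈ P := hQu ▸ mem_iUnion.mpr ⟨_, hy⟩
      rcases le_or_gt ‖y - v‖ R with h1 | h1
      · rw [mem_preimage, ext, if_pos h1] at hy
        rw [ext, if_pos h1] at hyP
        have hyP' : y ∈ P := ⟨hballR y h1, by rw [← hfinv 1 y (hballR y h1)]; exact hyP.2⟩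
        obtain ⟨i, hi⟩ := mem_iUnion.mp (hQu ▸ hyP' : y ∈ ⋃ j, Q j)
        rcases eq_or_ne i j with e | e
        · exact e ▸ hi
        · exact (disjoint_left.mp (hQd fun h => e (add_right_cancel h)) (hQs i y hi) hy).elim
      · have h2 := ext_norm hR hδ hgd hmR hgm h1
        linarith [hin _ hyP.1 hyP.2]
    · intro hy
      have hyP : y ∈ P := hQu ▸ mem_iUnion.mpr ⟨_, hy⟩
      rw [mem_preimage, ext, if_pos ((hin y hyP.1 hyP.2).le.trans hmR)]
      exact hQs j y hy
  · exact (isOpen_lt (by fun_prop) continuous_const).inter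
      ((isOpen_lt (by fun_prop) continuous_const).preimage hG'c)
  · rw [hfib]
    intro y hy
    have h1 := hin y hy.1 hy.2
    refine ⟨h1.trans_le hmR, ?_⟩
    show ‖ext v R R' (ρ 1) y - v‖ < R
    rw [ext, if_pos (h1.le.trans hmR)]
    exact (hin _ (hPinv 1 hy).1 (hPinv 1 hy).2).trans_le hmR
  · intro y hy
    have h1 : ‖y - v‖ ≤ R := le_of_lt hy.1
    have h2 : ‖ρ 1 y - v‖ ≤ R := by
      have h := hy.2
      simp only [mem_preimage, mem_ofPred_eq, ext, if_pos h1] at h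
      exact h.le
    simp only [ext, if_pos h1, if_pos h2]
    exact hfinv 1 y (hballR y h1)

end Vale.Agent.P228
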