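import Vale.Agent.P228.Key

/-! A continuous map, equal to the identity outside a ball, has no fibre that splits into `p`
compact pieces permuted cyclically by a symmetry of the map. -/

open MeasureTheory Set Metric Filter Topology
open scoped BigOperators

namespace Vale.Agent.P228

variable {n : ℕ}

theorem exists_smooth_near {f : Vec n → Vec n} (hf : Continuous f) {R : ℝ}
    (hid : ∀ x, R < ‖x‖ → f x = x) {δ : ℝ} (hδ : 0 < δ) :
    ∃ g : Vec n → Vec n, ContDiff ℝ 1 g ∧ (∀ x, R < ‖x‖ → g x = x) ∧ ∀ x, dist (g x) (f x) < δ := by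
  obtain ⟨v, hv, hvd, hvs⟩ := (hf.sub continuous_id).exists_contDiff_approx 1
    (continuous_const (y := δ)) (fun _ => hδ)
  refine ⟨fun x => x + v x, contDiff_id.add hv, fun x hx => ?_, fun x => ?_⟩
  · have h0 : v x = 0 := by
      by_contra h
      exact hvs h (by simp [hid x hx])
    simp [h0]
  · have h := hvd x
    rw [dist_eq_norm] at h ⊢
    simpa [sub_sub_eq_add_sub, add_sub_assoc, add_comm] using h

theorem exists_eps {h : Vec n → Vec n} (hh : Continuous h) {R : ℝ}
    (hid : ∀ x, R < ‖x‖ → h x = x) (z : Vec n) {U : Set (Vec n)} (hU : IsOpen U)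
    (hzU : h ⁻¹' {z} ⊆ U) : ∃ ε > 0, ∀ x, dist (h x) z ≤ ε → x ∈ U := by
  rcases Set.eq_empty_or_nonempty (closedBall (0 : Vec n) (max R (‖z‖ + 1)) \ U) with he | hne
  · refine ⟨1, one_pos, fun x hx => ?_⟩
    by_contra hxU
    have hxb : x ∈ closedBall (0 : Vec n) (max R (‖z‖ + 1)) := by
      rw [mem_closedBall, dist_zero_right]
      by_contra hlt
      rw [not_le, max_lt_iff] at hlt
      rw [hid x hlt.1, dist_eq_norm] at hx
      have := norm_sub_norm_le x z
      linarith
    exact Set.eq_empty_iff_forall_notMem.mp he x ⟨hxb, hxU⟩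
  · obtain ⟨x₀, hx₀, hmin⟩ :=
      ((isCompact_closedBall (0 : Vec n) (max R (‖z‖ + 1))).diff hU).exists_isMinOn hne
        (f := fun x => dist (h x) z) ((hh.dist continuous_const).continuousOn)
    have hpos : 0 < dist (h x₀) z := dist_pos.mpr fun e => hx₀.2 (hzU e)
    refine ⟨min 1 (dist (h x₀) z / 2), lt_min one_pos (half_pos hpos), fun x hx => ?_⟩
    by_contra hxU
    have hxb : x ∈ closedBall (0 : Vec n) (max R (‖z‖ + 1)) := by
      rw [mem_closedBall, dist_zero_right]
      by_contra hlt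
      rw [not_le, max_lt_iff] at hlt
      rw [hid x hlt.1, dist_eq_norm] at hx
      have := norm_sub_norm_le x z
      linarith [min_le_left (1:ℝ) (dist (h x₀) z / 2)]
    have h1 : dist (h x₀) z ≤ dist (h x) z := hmin ⟨hxb, hxU⟩
    linarith [min_le_right (1:ℝ) (dist (h x₀) z / 2)]

theorem exists_cutoff {K U : Set (Vec n)} (hK : IsCompact K) (hU : IsOpen U) (hKU : K ⊆ U) :
    ∃ χ : Vec n → ℝ, ContDiff ℝ 1 χ ∧ tsupport χ ⊆ U ∧ (∀ x, χ x ∈ Icc (0:ℝ) 1) ∧
      ∀ x ∈ K, ∀ᶠ y in 𝓝 x, χ y = 1 := by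
  obtain ⟨L, hL, hKL, hLU⟩ := exists_compact_between hK hU hKU
  obtain ⟨c, hc1, hc0, hcs, hc01⟩ := exists_continuous_one_zero_of_isCompact (s := K)
    (t := (interior L)ᶜ) hK isOpen_interior.isClosed_compl (disjoint_compl_right_iff_subset.mpr hKL)
  obtain ⟨g, hg, hgd, hgs⟩ := ((continuous_const (y := (2:ℝ))).mul c.continuous).exists_contDiff_approx
    1 (continuous_const (y := (1:ℝ) / 2)) (fun _ => by norm_num)
  refine ⟨fun x => Real.smoothTransition (2 * g x - 1), ?_, ?_, fun x =>
    ⟨Real.smoothTransition.nonneg _, Real.smoothTransition.le_one _⟩, fun x hx => ?_⟩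
  · exact Real.smoothTransition.contDiff.comp ((contDiff_const.mul hg).sub contDiff_const)
  · refine (closure_minimal (fun x hx => ?_) hL.isClosed).trans hLU
    by_contra hxL
    apply hx
    have : g x = 0 := by
      by_contra h
      exact hgs h (by simp [hc0 (fun h' => hxL (interior_subset h'))])
    exact Real.smoothTransition.zero_of_nonpos (by rw [this]; norm_num)
  · have h2 : 1 < g x := by
      have h := hgd x
      rw [Real.dist_eq, abs_lt] at h
      have := hc1 hx
      simp only [Pi.one_apply] at this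
      simp only [Pi.mul_apply, this] at h
      linarith
    filter_upwards [hg.continuous.continuousAt.eventually (eventually_gt_nhds h2)] with y hy
    exact Real.smoothTransition.one_of_one_le (by linarith)

/-- Change of variables on a set where the Jacobian has constant sign. -/
theorem integral_injOn_sign {F : Vec n → Vec n} (hF : ContDiff ℝ 1 F) {U : Set (Vec n)}
    (hU : IsOpen U) (hinj : InjOn F U) {σ : ℝ} (hσ : ∀ x ∈ U, jac F x = σ * |jac F x|)
    {φ : Vec n → ℝ} (hφ : ∀ y, φ y ≠ 0 → y ∈ F '' U) :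
    ∫ x in U, φ (F x) * jac F x = σ * ∫ y, φ y := by
  have h := integral_image_eq_integral_abs_det_fderiv_smul volume hU.measurableSet
    (fun x _ => ((hF.differentiable one_ne_zero x).hasFDerivAt).hasFDerivWithinAt) hinj φ
  rw [setIntegral_eq_integral_of_forall_compl_eq_zero
    (fun y hy => not_not.mp (mt (hφ y) hy))] at h
  rw [h, ← integral_const_mul]
  refine setIntegral_congr_fun hU.measurableSet fun x hx => ?_
  show φ (F x) * jac F x = σ * (|jac F x| • φ (F x))
  rw [smul_eq_mul, ← mul_assoc, ← hσ x hx, mul_comm]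

/-- Integrality: near a value, some small density has integer pull-back integrals. -/
theorem exists_integral_density {F : Vec n → Vec n} (hF : ContDiff ℝ 1 F) {R : ℝ}
    (hid : ∀ x, R < ‖x‖ → F x = x) {W₀ : Set (Vec n)} (hW₀ : IsOpen W₀) {z : Vec n} {ε : ℝ}
    (hε : 0 < ε) (hbd : ∀ x, dist (F x) z < ε → x ∈ W₀ ∨ x ∉ closure W₀) :
    ∃ φ : Vec n → ℝ, Continuous φ ∧ HasCompactSupport φ ∧ (∀ y, φ y ≠ 0 → dist y z < ε) ∧
      0 < ∫ y, φ y ∧ ∃ m : ℤ, ∫ x in W₀, φ (F x) * jac F x = m * ∫ y, φ y := by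
  classical
  have hcrit : volume (F '' {x | jac F x = 0}) = 0 :=
    addHaar_image_eq_zero_of_det_fderivWithin_eq_zero volume
      (fun x _ => ((hF.differentiable one_ne_zero x).hasFDerivAt).hasFDerivWithinAt) fun x hx => hx
  obtain ⟨z', hz'b, hz'⟩ : ∃ z' ∈ ball z ε, z' ∉ F '' {x | jac F x = 0} := by
    by_contra! h
    have := measure_mono (μ := volume) h
    rw [hcrit] at this
    exact (measure_ball_pos volume z hε).not_ge this
  have hJc : Continuous (jac F) :=
    ContinuousLinearMap.continuous_det.comp (hF.continuous_fderiv one_ne_zero)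
  have hloc : ∀ x ∈ F ⁻¹' {z'}, ∃ U, IsOpen U ∧ x ∈ U ∧ InjOn F U ∧
      (∀ y ∈ U, jac F y * jac F x > 0) ∧ (U ⊆ W₀ ∨ Disjoint U W₀) ∧ F '' U ∈ 𝓝 z' := by
    intro x hx
    have hdet : (fderiv ℝ F x).det ≠ 0 := fun h => hz' ⟨x, h, hx⟩
    have hs : HasStrictFDerivAt F
        (((fderiv ℝ F x).toContinuousLinearEquivOfDetNeZero hdet : Vec n ≃L[ℝ] Vec n) :
          Vec n →L[ℝ] Vec n) x :=
      (hF.hasStrictFDerivAt one_ne_zero).congr_fderiv
        (ContinuousLinearMap.coe_toContinuousLinearEquivOfDetNeZero _ _).symm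
    have hxd : dist (F x) z < ε := by rw [show F x = z' from hx]; exact hz'b
    obtain ⟨V, hV, hxV, hVW⟩ : ∃ V, IsOpen V ∧ x ∈ V ∧ (V ⊆ W₀ ∨ Disjoint V W₀) := by
      rcases hbd x hxd with h | h
      · exact ⟨W₀, hW₀, h, Or.inl subset_rfl⟩
      · exact ⟨(closure W₀)ᶜ, isClosed_closure.isOpen_compl, h,
          Or.inr (disjoint_compl_left.mono_right subset_closure)⟩
    have hpos : IsOpen {y | jac F y * jac F x > 0} :=
      isOpen_lt continuous_const (hJc.mul continuous_const)
    refine ⟨(hs.toOpenPartialHomeomorph F).source ∩ V ∩ {y | jac F y * jac F x > 0},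
      ((hs.toOpenPartialHomeomorph F).open_source.inter hV).inter hpos,
      ⟨⟨hs.mem_toOpenPartialHomeomorph_source, hxV⟩, mul_self_pos.mpr hdet⟩,
      ?_, fun y hy => hy.2, ?_, ?_⟩
    · intro a ha b hb hab
      exact (hs.toOpenPartialHomeomorph F).injOn ha.1.1 hb.1.1
        (by simpa [hs.toOpenPartialHomeomorph_coe] using hab)
    · rcases hVW with h | h
      · exact Or.inl fun y hy => h hy.1.2
      · exact Or.inr (h.mono_left fun y hy => hy.1.2)
    · rw [← show F x = z' from hx, ← hs.map_nhds_eq_of_equiv]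
      exact image_mem_map ((((hs.toOpenPartialHomeomorph F).open_source.inter hV).inter hpos).mem_nhds
        ⟨⟨hs.mem_toOpenPartialHomeomorph_source, hxV⟩, mul_self_pos.mpr hdet⟩)
  choose! U hUo hxU hUinj hUsign hUW hUimg using hloc
  have hPc : IsCompact (F ⁻¹' {z'}) := by
    refine (isCompact_closedBall (0 : Vec n) (max R ‖z'‖)).of_isClosed_subset
      (isClosed_singleton.preimage hF.continuous) fun x hx => ?_
    rw [mem_closedBall, dist_zero_right]
    by_contra h
    rw [not_le, max_lt_iff] at h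
    have e : F x = z' := hx
    rw [hid x h.1] at e
    exact h.2.ne' (by rw [e])
  obtain ⟨T, hTP, hTcov⟩ := hPc.elim_nhds_subcover U fun x hx => (hUo x hx).mem_nhds (hxU x hx)
  have huniq : ∀ x ∈ F ⁻¹' {z'}, ∀ y ∈ F ⁻¹' {z'}, y ∈ U x → y = x := fun x hx y hy hyU =>
    hUinj x hx hyU (hxU x hx) (hy.trans hx.symm)
  have hTall : ∀ y ∈ F ⁻¹' {z'}, y ∈ T := fun y hy => by
    obtain ⟨x, hxT, hyx⟩ := mem_iUnion₂.mp (hTcov hy)
    exact huniq x (hTP x hxT) y hy hyx ▸ hxT
  -- pairwise disjoint balls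
  obtain ⟨O, hO, hOd⟩ := T.finite_toSet.t2_separation
  let A : Vec n → Set (Vec n) := fun x => U x ∩ O x
  have hA : ∀ x ∈ T, IsOpen (A x) ∧ x ∈ A x ∧ F '' A x ∈ 𝓝 z' := by
    intro x hx
    refine ⟨(hUo x (hTP x hx)).inter (hO x).2, ⟨hxU x (hTP x hx), (hO x).1⟩, ?_⟩
    have hdet : (fderiv ℝ F x).det ≠ 0 := fun h => hz' ⟨x, h, hTP x hx⟩
    have hs : HasStrictFDerivAt F
        (((fderiv ℝ F x).toContinuousLinearEquivOfDetNeZero hdet : Vec n ≃L[ℝ] Vec n) :
          Vec n →L[ℝ] Vec n) x :=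
      (hF.hasStrictFDerivAt one_ne_zero).congr_fderiv
        (ContinuousLinearMap.coe_toContinuousLinearEquivOfDetNeZero _ _).symm
    rw [← show F x = z' from hTP x hx, ← hs.map_nhds_eq_of_equiv]
    exact image_mem_map (((hUo x (hTP x hx)).inter (hO x).2).mem_nhds
      ⟨hxU x (hTP x hx), (hO x).1⟩)
  obtain ⟨ε₁, hε₁, hε₁'⟩ := exists_eps hF.continuous hid z'
    (isOpen_biUnion fun x (hx : x ∈ T) => (hA x hx).1)
    (fun y hy => mem_iUnion₂.mpr ⟨y, hTall y hy, (hA y (hTall y hy)).2.1⟩)
  have himg : (⋂ x ∈ T, F '' A x) ∈ 𝓝 z' :=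
    (Filter.biInter_finset_mem T).mpr fun x hx => (hA x hx).2.2
  obtain ⟨ρ₁, hρ₁, hρ₁'⟩ := Metric.mem_nhds_iff.mp himg
  set ρ := min (min ε₁ ρ₁) (ε - dist z' z) with hρdef
  have hρ : 0 < ρ := lt_min (lt_min hε₁ hρ₁) (sub_pos.mpr hz'b)
  let φ : Vec n → ℝ := fun y => max 0 (ρ - dist y z')
  have hφne : ∀ y, φ y ≠ 0 → dist y z' < ρ := fun y hy => by
    by_contra h
    exact hy (max_eq_left (by linarith [not_lt.mp h]))
  have hφc : Continuous φ := by fun_prop
  have hφs : HasCompactSupport φ := HasCompactSupport.intro (isCompact_closedBall z' ρ)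
    fun y hy => by
      by_contra h
      exact hy (mem_closedBall.mpr (hφne y h).le)
  have hφpos : 0 < ∫ y, φ y := by
    apply hφc.integral_pos_of_hasCompactSupport_nonneg_nonzero hφs (fun y => le_max_left _ _)
      (x := z')
    simp [φ, hρ.ne', hρ.le]
  refine ⟨φ, hφc, hφs, fun y hy => ?_, hφpos, ?_⟩
  · have := hφne y hy
    have := min_le_right (min ε₁ ρ₁) (ε - dist z' z)
    linarith [dist_triangle y z' z]
  let sg : Vec n → ℤ := fun x => if 0 < jac F x then 1 else -1
  have hsg : ∀ x ∈ T, ∀ y ∈ A x, jac F y = (sg x : ℝ) * |jac F y| := by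
    intro x hx y hy
    have h := hUsign x (hTP x hx) y hy.1
    by_cases hp : 0 < jac F x
    · have hy0 : 0 < jac F y := (pos_iff_pos_of_mul_pos h).mpr hp
      simp [sg, hp, abs_of_pos hy0]
    · have hy0 : jac F y < 0 := by
        rcases mul_pos_iff.mp h with h' | h'
        · exact absurd h'.2 hp
        · exact h'.1
      simp [sg, hp, abs_of_neg hy0]
  refine ⟨∑ x ∈ T.filter (fun x => U x ⊆ W₀), sg x, ?_⟩
  set g : Vec n → ℝ := fun x => φ (F x) * jac F x
  have hgc : Continuous g := (hφc.comp hF.continuous).mul hJc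
  have hgsupp : ∀ x, g x ≠ 0 → ∃ a ∈ T, x ∈ A a := fun x hx => by
    have h := hφne _ (left_ne_zero_of_mul hx)
    have := (min_le_left (min ε₁ ρ₁) (ε - dist z' z)).trans (min_le_left _ _)
    obtain ⟨a, ha, hxa⟩ := mem_iUnion₂.mp (hε₁' x (by linarith))
    exact ⟨a, ha, hxa⟩
  have hint : Integrable g := by
    refine hgc.integrable_of_hasCompactSupport (HasCompactSupport.intro
      (isCompact_closedBall (0 : Vec n) (max R (‖z'‖ + ρ))) fun x hx => ?_)
    by_contra h
    apply hx
    rw [mem_closedBall, dist_zero_right]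
    by_contra hlt
    rw [not_le, max_lt_iff] at hlt
    have h2 := hφne _ (left_ne_zero_of_mul h)
    rw [hid x hlt.1, dist_eq_norm] at h2
    linarith [norm_sub_norm_le x z']
  calc ∫ x in W₀, g x = ∫ x in ⋃ a ∈ T.filter (fun x => U x ⊆ W₀), A a, g x := by
        refine setIntegral_eq_of_subset_of_forall_sdiff_eq_zero hW₀.measurableSet ?_ ?_
        · intro y hy
          obtain ⟨a, ha, hya⟩ := mem_iUnion₂.mp hy
          exact (Finset.mem_filter.mp ha).2 hya.1
        · intro y hy
          by_contra hne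
          obtain ⟨a, ha, hya⟩ := hgsupp y hne
          refine hy.2 (mem_iUnion₂.mpr ⟨a, Finset.mem_filter.mpr ⟨ha, ?_⟩, hya⟩)
          exact (hUW a (hTP a ha)).resolve_right fun h => disjoint_left.mp h hya.1 hy.1
    _ = ∑ a ∈ T.filter (fun x => U x ⊆ W₀), ∫ x in A a, g x := by
        apply integral_biUnion_finset
        · exact fun a ha => (hA a (Finset.mem_filter.mp ha).1).1.measurableSet
        · intro a ha b hb hab
          exact (hOd (Finset.mem_filter.mp ha).1 (Finset.mem_filter.mp hb).1 hab).mono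
            inter_subset_right inter_subset_right
        · exact fun a _ => hint.integrableOn
    _ = _ := by
        rw [Int.cast_sum, Finset.sum_mul]
        refine Finset.sum_congr rfl fun a ha => ?_
        have haT := (Finset.mem_filter.mp ha).1
        refine integral_injOn_sign hF (hA a haT).1
          ((hUinj a (hTP a haT)).mono inter_subset_left) (hsg a haT) fun y hy => ?_
        have h := hφne y hy
        have := (min_le_left (min ε₁ ρ₁) (ε - dist z' z)).trans (min_le_right _ _)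
        exact mem_iInter₂.mp (hρ₁' (mem_ball.mpr (by linarith))) a haT

/-- No fibre splits into cyclically permuted pieces. -/
theorem no_cyclic_split {p : ℕ} [hp : NeZero p] (hp2 : 2 ≤ p) {f G : Vec n → Vec n}
    (hf : Continuous f) (hG : Continuous G) {R : ℝ} (hfid : ∀ x, R < ‖x‖ → f x = x)
    (hGid : ∀ x, R < ‖x‖ → G x = x) (z : Vec n) (P : ZMod p → Set (Vec n))
    (hPc : ∀ j, IsCompact (P j)) (hPd : Pairwise fun i j => Disjoint (P i) (P j))
    (hPu : (⋃ j, P j) = f ⁻¹' {z}) (hPG : ∀ j, G ⁻¹' P (j + 1) = P j) {N : Set (Vec n)}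
    (hN : IsOpen N) (hPN : f ⁻¹' {z} ⊆ N) (hfG : ∀ x ∈ N, f (G x) = f x) : False := by
  classical
  -- disjoint open neighbourhoods
  have hsep : ∀ i j, i ≠ j → SeparatedNhds (P i) (P j) := fun i j hij =>
    SeparatedNhds.of_isCompact_isCompact (hPc i) (hPc j) (hPd hij)
  choose A B hA hB hPA hPB hAB using hsep
  let W : ZMod p → Set (Vec n) := fun i =>
    N ∩ ⋂ j, if h : i ≠ j then A i j h ∩ B j i h.symm else univ
  have hWo : ∀ i, IsOpen (W i) := by
    intro i
    refine hN.inter (isOpen_iInter_of_finite fun j => ?_)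
    split_ifs with h
    · exact (hA _ _ h).inter (hB _ _ h.symm)
    · exact isOpen_univ
  have hPW : ∀ i, P i ⊆ W i := by
    intro i x hx
    refine ⟨hPN (hPu ▸ mem_iUnion.mpr ⟨i, hx⟩), mem_iInter.mpr fun j => ?_⟩
    split_ifs with h
    · exact ⟨hPA _ _ h hx, hPB _ _ h.symm hx⟩
    · exact mem_univ _
  have hWd : ∀ i j, i ≠ j → ∀ x, x ∈ W i → x ∈ W j → False := by
    intro i j hij x hi hj
    have h1 := mem_iInter.mp hi.2 j
    have h2 := mem_iInter.mp hj.2 i
    rw [dif_pos hij] at h1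
    rw [dif_pos hij.symm] at h2
    exact disjoint_left.mp (hAB i j hij) h1.1 h2.2
  let W' : ZMod p → Set (Vec n) := fun i => W i ∩ G ⁻¹' W (i + 1)
  have hW'o : ∀ i, IsOpen (W' i) := fun i => (hWo i).inter ((hWo _).preimage hG)
  have hPW' : ∀ i, P i ⊆ W' i := fun i x hx => ⟨hPW i hx, hPW (i + 1) (by rw [← hPG i] at hx; exact hx)⟩
  have hUo : IsOpen (⋃ i, W' i) := isOpen_iUnion hW'o
  have hf1 : f ⁻¹' {z} ⊆ ⋃ i, W' i := hPu ▸ iUnion_mono hPW'
  have hfGid : ∀ x, R < ‖x‖ → f (G x) = x := fun x hx => by rw [hGid x hx, hfid x hx]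
  have hf2 : (f ∘ G) ⁻¹' {z} ⊆ ⋃ i, W' i := by
    rw [preimage_comp, ← hPu, preimage_iUnion]
    refine iUnion_subset fun k => ?_
    have := hPG (k - 1)
    rw [sub_add_cancel] at this
    exact this ▸ (hPW' _).trans (subset_iUnion W' _)
  obtain ⟨a₁, ha₁, ha₁'⟩ := exists_eps hf hfid z hUo hf1
  obtain ⟨a₂, ha₂, ha₂'⟩ := exists_eps (hf.comp hG) hfGid z hUo hf2
  set ε := min a₁ a₂ / 6 with hεdef
  have hε : 0 < ε := by positivity
  have he1 : ∀ x, dist (f x) z ≤ 6 * ε → ∃ i, x ∈ W' i := fun x hx =>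
    mem_iUnion.mp (ha₁' x (by linarith [min_le_left a₁ a₂]))
  have he2 : ∀ x, dist (f (G x)) z ≤ 6 * ε → ∃ i, x ∈ W' i := fun x hx =>
    mem_iUnion.mp (ha₂' x (by simp only [Function.comp_apply]; linarith [min_le_right a₁ a₂]))
  -- `f` is uniformly continuous
  obtain ⟨δ₀, hδ₀, hδ₀'⟩ : ∃ δ > 0, ∀ x y, dist x y < δ → dist (f x) (f y) < ε := by
    have hs : HasCompactSupport (fun x => f x - x) :=
      HasCompactSupport.intro (isCompact_closedBall 0 R) fun x hx => by
        rw [mem_closedBall, dist_zero_right, not_le] at hx; simp [hfid x hx]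
    have hu := ((hf.sub continuous_id).uniformContinuous_of_tendsto_cocompact
      (hs.is_zero_at_infty : Tendsto (fun x => f x - x) (cocompact _) (𝓝 0))).add uniformContinuous_id
    obtain ⟨δ, hδ, h⟩ := Metric.uniformContinuous_iff.mp hu ε hε
    exact ⟨δ, hδ, fun x y hxy => by simpa using h hxy⟩
  -- compact pieces
  let C : ZMod p → Set (Vec n) := fun i =>
    {x | dist (f (G x)) z ≤ 6 * ε} \ ⋃ (l) (_ : l ≠ i), W' l
  have hCW : ∀ i, C i ⊆ W' i := by
    intro i x hx
    obtain ⟨k, hk⟩ := he2 x hx.1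
    rcases eq_or_ne k i with h | h
    · exact h ▸ hk
    · exact absurd (mem_iUnion₂.mpr ⟨k, h, hk⟩) hx.2
  have hCc : ∀ i, IsCompact (G '' C i) := by
    intro i
    refine IsCompact.image ((isCompact_closedBall (0 : Vec n) (max R (‖z‖ + 6 * ε))).of_isClosed_subset
      ((isClosed_le ((hf.comp hG).dist continuous_const) continuous_const).sdiff
        (isOpen_iUnion fun l => isOpen_iUnion fun _ => hW'o l)) fun x hx => ?_) hG
    rw [mem_closedBall, dist_zero_right]
    by_contra h
    rw [not_le, max_lt_iff] at h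
    have h' : dist (f (G x)) z ≤ 6 * ε := hx.1
    rw [hfGid x h.1, dist_eq_norm] at h'
    linarith [norm_sub_norm_le x z]
  have hηi : ∀ i, ∃ η > 0, thickening η (G '' C i) ⊆ W (i + 1) := fun i =>
    (hCc i).exists_thickening_subset_open (hWo _) (by rintro _ ⟨x, hx, rfl⟩; exact (hCW i hx).2)
  choose η hη hη' using hηi
  obtain ⟨i₀, -, hi₀⟩ := Finset.exists_min_image Finset.univ η ⟨0, Finset.mem_univ _⟩
  set δG := min δ₀ (η i₀)
  obtain ⟨f', hf'C, hf'id, hf'd⟩ := exists_smooth_near hf hfid hε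
  obtain ⟨G', hG'C, hG'id, hG'd⟩ := exists_smooth_near hG hGid (lt_min hδ₀ (hη i₀) : 0 < δG)
  have hW'cl : ∀ x, dist (f x) z ≤ 6 * ε → x ∈ W' 0 ∨ x ∉ closure (W' 0) := by
    intro x hx
    obtain ⟨k, hk⟩ := he1 x hx
    rcases eq_or_ne k 0 with h | h
    · exact Or.inl (h ▸ hk)
    · refine Or.inr fun hc => ?_
      obtain ⟨y, hy, hy0⟩ := mem_closure_iff.mp hc _ (hW'o k) hk
      exact hWd k 0 h y hy.1 hy0.1
  obtain ⟨φ, hφc, hφs, hφne, hφpos, m, hm⟩ :=
    exists_integral_density hf'C hf'id (hW'o 0) hε (z := z) fun x hx =>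
      hW'cl x (by linarith [dist_triangle (f x) (f' x) z, dist_comm (f x) (f' x), hf'd x])
  set g : Vec n → ℝ := fun x => φ (f' x) * jac f' x
  have hJc : ∀ {F : Vec n → Vec n}, ContDiff ℝ 1 F → Continuous (jac F) := fun hF =>
    ContinuousLinearMap.continuous_det.comp (hF.continuous_fderiv one_ne_zero)
  have hgc : Continuous g := (hφc.comp hf'C.continuous).mul (hJc hf'C)
  have hgW : ∀ x, g x ≠ 0 → dist (f x) z ≤ 6 * ε := fun x hx => by
    have := hφne _ (left_ne_zero_of_mul hx)
    linarith [dist_triangle (f x) (f' x) z, dist_comm (f x) (f' x), hf'd x]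
  have hcs : ∀ {F : Vec n → Vec n}, (∀ x, R < ‖x‖ → F x = x) →
      HasCompactSupport fun x => φ (F x) * jac F x := by
    intro F hF
    refine HasCompactSupport.intro (isCompact_closedBall (0 : Vec n) (max R (‖z‖ + ε))) fun x hx => ?_
    rw [mem_closedBall, dist_zero_right, not_le, max_lt_iff] at hx
    by_contra h
    have := hφne _ (left_ne_zero_of_mul h)
    rw [hF x hx.1, dist_eq_norm] at this
    linarith [norm_sub_norm_le x z]
  have hgi : Integrable g := hgc.integrable_of_hasCompactSupport (hcs hf'id)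
  let a : ZMod p → ℝ := fun i => ∫ x in W' i, g x
  have hsum : ∑ i, a i = ∫ y, φ y := by
    rw [← integral_iUnion_fintype (fun i => (hW'o i).measurableSet)
      (fun i j hij => disjoint_left.mpr fun x h1 h2 => hWd i j hij x h1.1 h2.1)
      (fun i => hgi.integrableOn),
      setIntegral_eq_integral_of_forall_compl_eq_zero]
    · exact integral_comp_mul_jac hf'C hf'id hφc hφs
    · intro x hx
      by_contra h
      exact hx (mem_iUnion.mpr (he1 x (hgW x h)))
  have hstep : ∀ j, a (j + 1) = a j := by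
    intro j
    set ψ : Vec n → ℝ := (W' (j + 1)).indicator g
    have hψc : Continuous ψ := by
      refine continuous_indicator (fun x hx => ?_) hgc.continuousOn
      by_contra h
      obtain ⟨k, hk⟩ := he1 x (hgW x h)
      rcases eq_or_ne k (j + 1) with e | e
      · exact hx.2 ((hW'o _).interior_eq.symm ▸ (e ▸ hk))
      · obtain ⟨y, hy, hy0⟩ := mem_closure_iff.mp hx.1 _ (hW'o k) hk
        exact hWd k (j + 1) e y hy.1 hy0.1
    have hψs : HasCompactSupport ψ := (hcs hf'id).mono (by
      intro x hx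
      exact fun h => hx (by simp [ψ, Set.indicator_apply, g, h]))
    have key := integral_comp_mul_jac hG'C hG'id hψc hψs
    rw [integral_indicator (hW'o _).measurableSet] at key
    -- where `ψ ∘ G'` lives
    have hclose : ∀ x, dist (f (G' x)) (f (G x)) < ε := fun x =>
      hδ₀' _ _ ((hG'd x).trans_le (min_le_left _ _))
    have hloc : ∀ x, φ (f' (G' x)) ≠ 0 → dist (f (G x)) z ≤ 6 * ε ∧ dist (f (G' x)) z ≤ 6 * ε := by
      intro x hx
      have h1 := hφne _ hx
      have h2 : dist (f (G' x)) z ≤ 2 * ε := by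
        linarith [dist_triangle (f (G' x)) (f' (G' x)) z, dist_comm (f (G' x)) (f' (G' x)),
          hf'd (G' x)]
      constructor
      · linarith [dist_triangle (f (G x)) (f (G' x)) z, dist_comm (f (G x)) (f (G' x)), hclose x]
      · linarith
    have hGW : ∀ k x, x ∈ C k → G' x ∈ W (k + 1) := fun k x hx =>
      hη' k (mem_thickening_iff.mpr ⟨G x, ⟨x, hx, rfl⟩,
        ((hG'd x).trans_le (min_le_right _ _)).trans_le (hi₀ k (Finset.mem_univ _))⟩)
    have hmem : ∀ x, φ (f' (G' x)) ≠ 0 → (G' x ∈ W' (j + 1) ↔ x ∈ W' j) := by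
      intro x hx
      obtain ⟨h1, h2⟩ := hloc x hx
      obtain ⟨k, hk⟩ := he2 x h1
      have hxC : x ∈ C k := ⟨h1, fun h => by
        obtain ⟨l, hl, hxl⟩ := mem_iUnion₂.mp h
        exact hWd l k hl x hxl.1 hk.1⟩
      have hGk := hGW k x hxC
      obtain ⟨l, hl⟩ := he1 _ h2
      constructor
      · intro h
        rcases eq_or_ne (j + 1) (k + 1) with e | e
        · exact add_right_cancel e ▸ hk
        · exact (hWd _ _ e _ h.1 hGk).elim
      · intro h
        rcases eq_or_ne k j with e | e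
        · subst e
          rcases eq_or_ne l (k + 1) with e' | e'
          · exact e' ▸ hl
          · exact (hWd _ _ e' _ hl.1 hGk).elim
        · exact (hWd _ _ e _ hk.1 h.1).elim
    -- the homotopy
    have hKc : IsCompact ({x | dist (f x) z ≤ 6 * ε} \ ⋃ (l) (_ : l ≠ j), W' l) := by
      refine (isCompact_closedBall (0 : Vec n) (max R (‖z‖ + 6 * ε))).of_isClosed_subset
        ((isClosed_le (hf.dist continuous_const) continuous_const).sdiff
          (isOpen_iUnion fun l => isOpen_iUnion fun _ => hW'o l)) fun x hx => ?_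
      rw [mem_closedBall, dist_zero_right]
      by_contra h
      rw [not_le, max_lt_iff] at h
      have h' : dist (f x) z ≤ 6 * ε := hx.1
      rw [hfid x h.1, dist_eq_norm] at h'
      linarith [norm_sub_norm_le x z]
    obtain ⟨χ, hχ, hχs, hχ01, hχ1⟩ := exists_cutoff hKc (hW'o j) fun x hx => by
      obtain ⟨k, hk⟩ := he1 x hx.1
      rcases eq_or_ne k j with h | h
      · exact h ▸ hk
      · exact absurd (mem_iUnion₂.mpr ⟨k, h, hk⟩) hx.2
    let H : Vec n → Vec n := fun x => f' x + χ x • (f' (G' x) - f' x)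
    have hHC : ContDiff ℝ 1 H := hf'C.add (hχ.smul ((hf'C.comp hG'C).sub hf'C))
    have hHid : ∀ x, R < ‖x‖ → H x = x := fun x hx => by
      simp [H, hf'id x hx, hG'id x hx]
    have hHout : ∀ x ∉ W' j, φ (H x) * jac H x = g x := by
      intro x hx
      have h0 : χ =ᶠ[𝓝 x] 0 := notMem_tsupport_iff_eventuallyEq.mp fun h => hx (hχs h)
      have e : H =ᶠ[𝓝 x] f' := h0.mono fun y hy => by simp [H, hy]
      simp only [g, jac, e.fderiv_eq, e.eq_of_nhds]
    have hHin : ∀ x ∈ W' j, φ (H x) * jac H x = ψ (G' x) * jac G' x := by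
      intro x hx
      have hxN : f (G x) = f x := hfG x hx.1.1
      have hd1 : dist (f' (G' x)) (f x) < 2 * ε := by
        rw [← hxN]
        linarith [dist_triangle (f' (G' x)) (f (G' x)) (f (G x)), hf'd (G' x), hclose x]
      have hd2 : dist (H x) (f x) ≤ 2 * ε := by
        have hb : H x ∈ segment ℝ (f' x) (f' (G' x)) :=
          ⟨1 - χ x, χ x, by linarith [(hχ01 x).2], (hχ01 x).1, by ring, by simp only [H]; module⟩
        exact (convex_closedBall (f x) (2 * ε)).segment_subset
          (mem_closedBall.mpr (by linarith [hf'd x])) (mem_closedBall.mpr hd1.le) hb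
      have hnear : φ (H x) ≠ 0 ∨ φ (f' (G' x)) ≠ 0 → ∀ᶠ y in 𝓝 x, χ y = 1 := by
        intro h
        apply hχ1
        refine ⟨?_, fun hu => ?_⟩
        · show dist (f x) z ≤ 6 * ε
          rcases h with h | h
          · linarith [hφne _ h, dist_triangle (f x) (H x) z, dist_comm (f x) (H x)]
          · linarith [hφne _ h, dist_triangle (f x) (f' (G' x)) z, dist_comm (f x) (f' (G' x))]
        · obtain ⟨l, hl, hxl⟩ := mem_iUnion₂.mp hu
          exact hWd l j hl x hxl.1 hx.1
      by_cases h : φ (H x) ≠ 0 ∨ φ (f' (G' x)) ≠ 0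
      · have e : H =ᶠ[𝓝 x] f' ∘ G' := (hnear h).mono fun y hy => by simp [H, hy]
        have hne : φ (f' (G' x)) ≠ 0 := by
          rcases h with h | h
          · rwa [e.eq_of_nhds] at h
          · exact h
        rw [e.eq_of_nhds, show ψ (G' x) = g (G' x) from
          Set.indicator_of_mem ((hmem x hne).mpr hx) _]
        simp only [Function.comp_apply, g, jac, e.fderiv_eq,
          fderiv_comp x (hf'C.differentiable one_ne_zero _) (hG'C.differentiable one_ne_zero _)]
        rw [mul_assoc]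
        congr 1
        exact LinearMap.det_comp _ _
      · push Not at h
        simp [h.1, ψ, Set.indicator_apply, g, h.2]
    have hHc : Continuous fun x => φ (H x) * jac H x :=
      (hφc.comp hHC.continuous).mul (hJc hHC)
    have hHi : Integrable (fun x => φ (H x) * jac H x) :=
      hHc.integrable_of_hasCompactSupport (hcs hHid)
    have e1 := integral_comp_mul_jac hHC hHid hφc hφs
    rw [← integral_comp_mul_jac hf'C hf'id hφc hφs,
      ← integral_add_compl (hW'o j).measurableSet hHi,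
      ← integral_add_compl (hW'o j).measurableSet hgi,
      setIntegral_congr_fun (hW'o j).measurableSet.compl hHout,
      setIntegral_congr_fun (hW'o j).measurableSet hHin] at e1
    rw [← setIntegral_eq_integral_of_forall_compl_eq_zero (s := W' j)] at key
    · show (∫ x in W' (j + 1), g x) = ∫ x in W' j, g x
      linarith
    · intro x hx
      by_contra h
      have h' := left_ne_zero_of_mul h
      have hmemW := Set.mem_of_indicator_ne_zero h'
      rw [show ψ (G' x) = g (G' x) from Set.indicator_of_mem hmemW _] at h'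
      exact hx ((hmem x (left_ne_zero_of_mul h')).mp hmemW)
  have hconst : ∀ j, a j = a 0 := by
    have : ∀ k : ℕ, a (k : ZMod p) = a 0 := fun k => by
      induction k with
      | zero => simp
      | succ k ih => rw [Nat.cast_succ, hstep, ih]
    exact fun j => ZMod.natCast_zmod_val j ▸ this j.val
  rw [Finset.sum_congr rfl fun j _ => hconst j, Finset.sum_const, Finset.card_univ, ZMod.card,
    nsmul_eq_mul, show a 0 = m * ∫ y, φ y from hm] at hsum
  have h1 : ((p : ℤ) * m : ℤ) = 1 := by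
    have : ((p : ℝ) * m) = 1 := mul_right_cancel₀ hφpos.ne' (by linarith)
    exact_mod_cast this
  have h2 : (p : ℤ) = 1 := Int.eq_one_of_mul_eq_one_right (by positivity) h1
  omega

end Vale.Agent.P228
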